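import Vale.Agent.Lib.P219D.Defs

/-!
# P219D: global defining functions

`ρ = Σ χ_i f_i` with a smooth partition of unity subordinate to `Ω` (`f = -1`), the complement of
`closure Ω` (`f = 1`) and small neighbourhoods of boundary points (local defining functions `f`).
At `p ∈ ∂Ω`: if `ℓ₁ w < 0` for one conormal then `ℓ₂ w ≤ 0` for all other conormals; so
`dρ(w) < 0` for a suitable `w`.
-/

open scoped ContDiff ENNReal Topology

namespace Vale.Agent.Lib.P219D

variable {n : ℕ}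

private theorem Def_nonneg {h : ℝ → ℝ} {h' : ℝ} (hd : HasDerivAt h h' 0) (h0 : h 0 = 0)
    (hp : ∀ᶠ t in 𝓝[>] (0 : ℝ), 0 ≤ h t) : 0 ≤ h' := by
  have h1 := hd.tendsto_slope_zero_right
  refine ge_of_tendsto h1 ?_
  filter_upwards [hp, self_mem_nhdsWithin] with t ht ht0
  rw [zero_add, h0, sub_zero, smul_eq_mul]
  exact mul_nonneg (inv_nonneg.2 (le_of_lt ht0)) ht

private theorem Def_neg {h : ℝ → ℝ} {h' : ℝ} (hd : HasDerivAt h h' 0) (h0 : h 0 = 0)
    (hn : h' < 0) : ∀ᶠ t in 𝓝[>] (0 : ℝ), h t < 0 := by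
  have h1 := hd.tendsto_slope_zero_right
  filter_upwards [h1.eventually (gt_mem_nhds hn), self_mem_nhdsWithin] with t ht ht0
  rw [zero_add, h0, sub_zero, smul_eq_mul] at ht
  have ht0' : 0 < t := ht0
  by_contra hcon
  exact absurd ht (not_lt.2 (mul_nonneg (inv_nonneg.2 ht0'.le) (not_lt.1 hcon)))

private theorem Def_curve {f : Rn n → ℝ} {ℓ : Rn n →L[ℝ] ℝ} {p : Rn n} (hf : HasFDerivAt f ℓ p)
    (w : Rn n) : HasDerivAt (fun t : ℝ => f (p + t • w)) (ℓ w) 0 := by
  have h1 : HasDerivAt (fun t : ℝ => p + t • w) w 0 := by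
    have := ((hasDerivAt_id (0 : ℝ)).smul_const w).const_add p
    simpa using this
  have h2 : HasFDerivAt f ℓ ((fun t : ℝ => p + t • w) 0) := by
    simpa using hf
  exact h2.comp_hasDerivAt (0 : ℝ) h1

private theorem Def_tend (p w : Rn n) :
    Filter.Tendsto (fun t : ℝ => p + t • w) (𝓝[>] (0 : ℝ)) (𝓝 p) := by
  have h1 : Continuous (fun t : ℝ => p + t • w) := by fun_prop
  have h2 := h1.tendsto 0
  rw [zero_smul, add_zero] at h2
  exact h2.mono_left nhdsWithin_le_nhds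

private theorem Def_exists_neg {ℓ : Rn n →L[ℝ] ℝ} (h : ℓ ≠ 0) : ∃ w, ℓ w < 0 := by
  by_contra hcon
  push Not at hcon
  refine h (ContinuousLinearMap.ext fun w => ?_)
  have h1 := hcon w
  have h2 := hcon (-w)
  rw [map_neg] at h2
  have h3 : ℓ w = 0 := le_antisymm (by linarith) h1
  rw [h3]
  rfl

/-- good local data -/
private structure Def_Good (Ω U : Set (Rn n)) (f : Rn n → ℝ) : Prop where
  op : IsOpen U
  sm : ContDiff ℝ ∞ f
  ins : ∀ y ∈ U, y ∈ Ω → f y < 0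
  bd : ∀ y ∈ U, y ∈ frontier Ω → f y = 0 ∧ fderiv ℝ f y ≠ 0
  out : ∀ y ∈ U, y ∉ closure Ω → 0 < f y

private theorem Def_local {Ω : Set (Rn n)} (hΩ : IsSmoothDomain Ω) (x : Rn n) :
    ∃ U f, x ∈ U ∧ Def_Good Ω U f := by
  by_cases hx : x ∈ Ω
  · refine ⟨Ω, fun _ => -1, hx, hΩ.isOpen, contDiff_const, fun y _ _ => by norm_num,
      fun y hy hy' => ?_, fun y hy hy' => absurd (subset_closure hy) hy'⟩
    rw [hΩ.isOpen.frontier_eq] at hy'
    exact absurd hy hy'.2
  · by_cases hx' : x ∈ closure Ω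
    · have hxf : x ∈ frontier Ω := by
        rw [hΩ.isOpen.frontier_eq]
        exact ⟨hx', hx⟩
      obtain ⟨ℓ, hℓ, f, hf, hfl, hf0, hev⟩ := hΩ.smooth_boundary x hxf
      have h1 : ∀ᶠ y in 𝓝 x, fderiv ℝ f y ≠ 0 := by
        have hc : Continuous (fderiv ℝ f) := hf.continuous_fderiv (by simp)
        have h2 : fderiv ℝ f x ≠ 0 := by rw [hfl.fderiv]; exact hℓ
        exact hc.continuousAt.eventually (isOpen_ne.mem_nhds h2)
      obtain ⟨U, hU, hUo, hxU⟩ := mem_nhds_iff.1 (hev.and h1)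
      have hfd : ∀ y, HasFDerivAt f (fderiv ℝ f y) y := fun y =>
        (hf.differentiable (by simp) y).hasFDerivAt
      refine ⟨U, f, hxU, hUo, hf, fun y hy hyΩ => (hU hy).1.1 hyΩ, fun y hy hyf => ?_,
        fun y hy hyo => ?_⟩
      · refine ⟨?_, (hU hy).2⟩
        rw [hΩ.isOpen.frontier_eq] at hyf
        refine le_antisymm ?_ (not_lt.1 fun h3 => hyf.2 ((hU hy).1.2 h3))
        by_contra h3
        push Not at h3
        have h4 : {z | 0 < f z} ∩ U ∈ 𝓝 y :=
          Filter.inter_mem (hf.continuous.continuousAt.eventually (lt_mem_nhds h3))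
            (hUo.mem_nhds hy)
        obtain ⟨z, ⟨hz1, hz2⟩, hz3⟩ := mem_closure_iff_nhds.1 hyf.1 _ h4
        have h5 : f z < 0 := (hU hz2).1.1 hz3
        have h6 : 0 < f z := hz1
        linarith
      · have h3 : 0 ≤ f y := not_lt.1 fun h4 => hyo (subset_closure ((hU hy).1.2 h4))
        refine lt_of_le_of_ne h3 fun h4 => hyo ?_
        obtain ⟨w, hw⟩ := Def_exists_neg (hU hy).2
        have h5 := Def_neg (Def_curve (hfd y) w) (by
          rw [zero_smul, add_zero, ← h4]) hw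
        have h6 : ∀ᶠ t in 𝓝[>] (0 : ℝ), y + t • w ∈ U :=
          (Def_tend y w).eventually (hUo.mem_nhds hy)
        refine mem_closure_of_tendsto (Def_tend y w) ?_
        filter_upwards [h5, h6] with t ht1 ht2
        exact (hU ht2).1.2 ht1
    · refine ⟨(closure Ω)ᶜ, fun _ => 1, hx', isClosed_closure.isOpen_compl, contDiff_const,
        fun y hy hy' => absurd (subset_closure hy') hy, fun y hy hy' => ?_,
        fun y _ _ => one_pos⟩
      exact absurd hy'.1 hy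

theorem exists_definingFunction {Ω : Set (Rn n)} (hΩ : IsSmoothDomain Ω) :
    ∃ ρ : Rn n → ℝ, ContDiff ℝ ∞ ρ ∧ (∀ x, x ∈ Ω ↔ ρ x < 0) ∧ (∀ x, x ∈ frontier Ω ↔ ρ x = 0) ∧
      ∀ x, ρ x = 0 → fderiv ℝ ρ x ≠ 0 := by
  choose U f hxU hG using Def_local hΩ
  obtain ⟨χ, hχ⟩ := SmoothPartitionOfUnity.exists_isSubordinate (M := Rn n)
    (modelWithCornersSelf ℝ (Rn n)) (s := Set.univ) isClosed_univ U (fun i => (hG i).op)
    (fun x _ => Set.mem_iUnion.2 ⟨x, hxU x⟩)
  obtain ⟨ρ, hρ⟩ : ∃ ρ : Rn n → ℝ, ρ = fun x => ∑ᶠ i, χ i x • f i x := ⟨_, rfl⟩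
  have hsm : ContDiff ℝ ∞ ρ := by
    rw [hρ]
    have h1 := hχ.contMDiff_finsum_smul (F := ℝ) (n := ⊤) (g := f) (fun i => (hG i).op)
      (fun i => (contMDiff_iff_contDiff.2 (hG i).sm).contMDiffOn)
    exact contMDiff_iff_contDiff.1 h1
  have hsum : ∀ y, ρ y = ∑ i ∈ χ.finsupport y, χ i y * f i y := by
    intro y
    rw [hρ]
    exact (χ.sum_finsupport_smul_eq_finsum y f).symm
  have hact : ∀ y i, i ∈ χ.finsupport y → 0 < χ i y ∧ y ∈ U i := by
    intro y i hi
    rw [SmoothPartitionOfUnity.mem_finsupport, Function.mem_support] at hi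
    exact ⟨lt_of_le_of_ne (χ.nonneg i y) (Ne.symm hi), hχ i (subset_tsupport _ hi)⟩
  have hpos : ∀ y, ∃ i ∈ χ.finsupport y, 0 < χ i y := by
    intro y
    obtain ⟨i, hi⟩ := χ.exists_pos_of_mem (Set.mem_univ y)
    refine ⟨i, ?_, hi⟩
    rw [SmoothPartitionOfUnity.mem_finsupport, Function.mem_support]
    exact hi.ne'
  have hin : ∀ y ∈ Ω, ρ y < 0 := by
    intro y hy
    rw [hsum]
    obtain ⟨i, hi, -⟩ := hpos y
    refine Finset.sum_neg' (fun j hj => ?_) ⟨i, hi, ?_⟩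
    · exact (mul_neg_of_pos_of_neg (hact y j hj).1 ((hG j).ins y (hact y j hj).2 hy)).le
    · exact mul_neg_of_pos_of_neg (hact y i hi).1 ((hG i).ins y (hact y i hi).2 hy)
  have hout : ∀ y, y ∉ closure Ω → 0 < ρ y := by
    intro y hy
    rw [hsum]
    obtain ⟨i, hi, -⟩ := hpos y
    refine Finset.sum_pos' (fun j hj => ?_) ⟨i, hi, ?_⟩
    · exact (mul_pos (hact y j hj).1 ((hG j).out y (hact y j hj).2 hy)).le
    · exact mul_pos (hact y i hi).1 ((hG i).out y (hact y i hi).2 hy)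
  have hbd : ∀ y ∈ frontier Ω, ρ y = 0 := by
    intro y hy
    rw [hsum]
    refine Finset.sum_eq_zero fun j hj => ?_
    rw [((hG j).bd y (hact y j hj).2 hy).1, mul_zero]
  have hcase : ∀ y, y ∈ Ω ∨ y ∈ frontier Ω ∨ y ∉ closure Ω := by
    intro y
    by_cases h1 : y ∈ Ω
    · exact Or.inl h1
    · by_cases h2 : y ∈ closure Ω
      · right
        left
        rw [hΩ.isOpen.frontier_eq]
        exact ⟨h2, h1⟩
      · exact Or.inr (Or.inr h2)
  refine ⟨ρ, hsm, fun x => ⟨hin x, fun h => ?_⟩, fun x => ⟨hbd x, fun h => ?_⟩, fun y hy => ?_⟩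
  · rcases hcase x with h1 | h1 | h1
    · exact h1
    · exact absurd (hbd x h1) h.ne
    · exact absurd (hout x h1) (not_lt.2 h.le)
  · rcases hcase x with h1 | h1 | h1
    · exact absurd h (hin x h1).ne
    · exact h1
    · exact absurd h (hout x h1).ne'
  · have hyf : y ∈ frontier Ω := by
      rcases hcase y with h1 | h1 | h1
      · exact absurd hy (hin y h1).ne
      · exact h1
      · exact absurd hy (hout y h1).ne'
    obtain ⟨i, hi, hip⟩ := hpos y
    have hyU := (hact y i hi).2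
    obtain ⟨hf0, hfd0⟩ := (hG i).bd y hyU hyf
    obtain ⟨w, hw⟩ := Def_exists_neg hfd0
    have hfd : HasFDerivAt (f i) (fderiv ℝ (f i) y) y :=
      ((hG i).sm.differentiable (by simp) y).hasFDerivAt
    have hχsm : ContDiff ℝ ∞ (χ i : Rn n → ℝ) := contMDiff_iff_contDiff.1 (χ i).contMDiff
    have hχd : HasFDerivAt (χ i : Rn n → ℝ) (fderiv ℝ (χ i) y) y :=
      (hχsm.differentiable (by simp) y).hasFDerivAt
    have hρd : HasFDerivAt ρ (fderiv ℝ ρ y) y := (hsm.differentiable (by simp) y).hasFDerivAt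
    have c1 := Def_curve hfd w
    have c2 := Def_curve hχd w
    have c3 := Def_curve hρd w
    have c4 := (c2.mul c1).sub c3
    have e0 : y + (0 : ℝ) • w = y := by rw [zero_smul, add_zero]
    have h2 := Def_neg c1 (by
      rw [e0, hf0]) hw
    have h3 : ∀ᶠ t in 𝓝[>] (0 : ℝ), y + t • w ∈ U i :=
      (Def_tend y w).eventually ((hG i).op.mem_nhds hyU)
    have h4 := Def_nonneg c4 (by
      change χ i (y + (0 : ℝ) • w) * f i (y + (0 : ℝ) • w) - ρ (y + (0 : ℝ) • w) = 0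
      rw [e0, hf0, hy, mul_zero, sub_zero]) (by
      filter_upwards [h2, h3] with t ht1 ht2
      change 0 ≤ χ i (y + t • w) * f i (y + t • w) - ρ (y + t • w)
      have hzΩ : y + t • w ∈ Ω := by
        rcases hcase (y + t • w) with h5 | h5 | h5
        · exact h5
        · exact absurd ((hG i).bd _ ht2 h5).1 ht1.ne
        · exact absurd ((hG i).out _ ht2 h5) (not_lt.2 ht1.le)
      obtain ⟨z, hz⟩ : ∃ z, z = y + t • w := ⟨_, rfl⟩
      rw [← hz] at hzΩ ⊢
      rw [sub_nonneg, hsum]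
      have hneg : ∀ j ∈ χ.finsupport z, χ j z * f j z ≤ 0 := fun j hj =>
        (mul_neg_of_pos_of_neg (hact z j hj).1 ((hG j).ins z (hact z j hj).2 hzΩ)).le
      by_cases hiz : i ∈ χ.finsupport z
      · rw [← Finset.add_sum_erase _ _ hiz]
        have h6 : ∑ j ∈ (χ.finsupport z).erase i, χ j z * f j z ≤ 0 :=
          Finset.sum_nonpos fun j hj => hneg j (Finset.mem_of_mem_erase hj)
        linarith
      · have h6 : χ i z = 0 := by
          rw [SmoothPartitionOfUnity.mem_finsupport, Function.mem_support, not_not] at hiz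
          exact hiz
        rw [h6, zero_mul]
        exact Finset.sum_nonpos hneg)
    rw [e0, hf0, mul_zero, zero_add] at h4
    intro h5
    rw [h5] at h4
    have h6 : χ i y * (fderiv ℝ (f i) y) w < 0 := mul_neg_of_pos_of_neg hip hw
    have h7 : (0 : Rn n →L[ℝ] ℝ) w = 0 := rfl
    rw [h7, sub_zero] at h4
    linarith

/-- conormals are one-sided -/
private theorem Def_side {Ω : Set (Rn n)} {p : Rn n} {ℓ₁ ℓ₂ : Rn n →L[ℝ] ℝ}
    (h₁ : IsConormal Ω p ℓ₁) (h₂ : IsConormal Ω p ℓ₂) {w : Rn n} (hw : ℓ₁ w < 0) : ℓ₂ w ≤ 0 := by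
  obtain ⟨-, f, -, hf1, hf2, hf3⟩ := h₁
  obtain ⟨-, g, -, hg1, hg2, hg3⟩ := h₂
  have e0 : p + (0 : ℝ) • w = p := by rw [zero_smul, add_zero]
  have h1 := Def_neg (Def_curve hf1 w) (by
    rw [e0, hf2]) hw
  have h2 := Def_nonneg (Def_curve hg1 w).neg (by
    change -(g (p + (0 : ℝ) • w)) = 0
    rw [e0, hg2, neg_zero]) (by
    filter_upwards [h1, (Def_tend p w).eventually hf3, (Def_tend p w).eventually hg3]
      with t ht1 ht2 ht3
    change 0 ≤ -(g (p + t • w))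
    have := ht3.1 (ht2.2 ht1)
    linarith)
  linarith

theorem tangent_eq_ker {Ω : Set (Rn n)} {p : Rn n} {ℓ : Rn n →L[ℝ] ℝ} (h : IsConormal Ω p ℓ) :
    tangent Ω p = LinearMap.ker (ℓ : Rn n →ₗ[ℝ] ℝ) := by
  refine le_antisymm (iInf_le_of_le ℓ (iInf_le _ h)) (le_iInf fun ℓ' => le_iInf fun h' => ?_)
  have key : ∀ w, ℓ w = 0 → ℓ' w ≤ 0 := by
    intro w hw
    obtain ⟨v, hv⟩ := Def_exists_neg h.1
    have h1 : ∀ᶠ ε in 𝓝[>] (0 : ℝ), ℓ' (w + ε • v) ≤ 0 := by
      filter_upwards [self_mem_nhdsWithin] with ε hε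
      refine Def_side h h' ?_
      rw [map_add, map_smul, hw, zero_add, smul_eq_mul]
      exact mul_neg_of_pos_of_neg hε hv
    have h2 : Filter.Tendsto (fun ε : ℝ => ℓ' (w + ε • v)) (𝓝[>] (0 : ℝ)) (𝓝 (ℓ' w)) :=
      (ℓ'.continuous.tendsto w).comp (Def_tend w v)
    exact le_of_tendsto h2 h1
  intro w hw
  have hw' : ℓ w = 0 := hw
  have h1 := key w hw'
  have h2 := key (-w) (by rw [map_neg, hw', neg_zero])
  rw [map_neg] at h2
  have h3 : ℓ' w = 0 := le_antisymm h1 (by linarith)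
  exact h3

end Vale.Agent.Lib.P219D
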