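import Vale.Agent.Lib.P219D.Metric
import Vale.Agent.Lib.P219D.Defining

/-!
# P219D: area with a defining function
-/

open scoped ContDiff ENNReal Topology
open MeasureTheory Set

namespace Vale.Agent.Lib.P219D

variable {n : ℕ}

/-- a domain has a global defining function, for which the two areas agree -/
theorem exists_rho {Ω : Set (Rn n)} (hΩ : IsSmoothDomain Ω) :
    ∃ ρ : Rn n → ℝ, P219.Co.IsDefiningFunction ρ ∧ {x | ρ x < 0} = Ω ∧
      ∀ g : Rn n → Rn n →L[ℝ] Rn n →L[ℝ] ℝ, IsRiemannianMetric g →
        area g Ω = P219.Co.area (mat g) ρ := by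
  obtain ⟨ρ, h1, h2, h3, h4⟩ := exists_definingFunction hΩ
  have hset : {x | ρ x < 0} = Ω := by
    ext x
    exact (h2 x).symm
  refine ⟨ρ, ⟨h1, by rw [hset]; exact hΩ.isBounded, fun x hx => ?_⟩, hset, fun g hg => ?_⟩
  · by_contra hcon
    push Not at hcon
    apply h4 x hx
    ext v
    rw [sum_single v, map_sum]
    simp only [map_smul, smul_eq_mul, zero_apply]
    refine Finset.sum_eq_zero fun i _ => ?_
    have : fderiv ℝ ρ x (EuclideanSpace.single i 1) = 0 := hcon i
    rw [this, mul_zero]
  · have hfr : frontier Ω = {x | ρ x = 0} := by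
      ext x
      exact h3 x
    have hcl : MeasurableSet {x | ρ x = 0} :=
      (isClosed_eq h1.continuous continuous_const).measurableSet
    unfold area P219.Co.area
    rw [hfr]
    refine setLIntegral_congr_fun hcl fun x hx => ?_
    have hne : fderiv ℝ ρ x ≠ 0 := h4 x hx
    have hcon : IsConormal Ω x (fderiv ℝ ρ x) :=
      ⟨hne, ρ, h1, (h1.differentiable (by simp) x).hasFDerivAt, hx,
        Filter.Eventually.of_forall h2⟩
    have key := gramDet_ker hg x hne
    rw [← tangent_eq_ker hcon] at key
    exact congrArg ENNReal.ofReal key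

end Vale.Agent.Lib.P219D
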