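import Mathlib

/-!
# P219: the generalized Cartan-Hadamard conjecture, coordinate-free on `ℝⁿ`

By the Cartan-Hadamard theorem a complete simply connected Riemannian `n`-manifold with
`Sec ≤ κ ≤ 0` is diffeomorphic to `ℝⁿ`, so the manifold is `ℝⁿ` with a smooth metric `g`.
-/

open scoped ContDiff ENNReal Topology
open MeasureTheory Set

namespace Vale.Agent.Lib.P219D

noncomputable section

/-- `ℝⁿ` -/
abbrev Rn (n : ℕ) : Type := EuclideanSpace ℝ (Fin n)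

variable {n : ℕ}

/-- `g` is a smooth Riemannian metric: a smooth field of inner products. -/
structure IsRiemannianMetric (g : Rn n → Rn n →L[ℝ] Rn n →L[ℝ] ℝ) : Prop where
  smooth : ContDiff ℝ ∞ g
  symm : ∀ x u v, g x u v = g x v u
  posDef : ∀ x v, v ≠ 0 → 0 < g x v v

/-- The connection `∇ = D + Γ`: covariant derivative at `x` of the field `Y` in the direction `u`. -/
def nabla (Γ : Rn n → Rn n →L[ℝ] Rn n →L[ℝ] Rn n) (u : Rn n) (Y : Rn n → Rn n) (x : Rn n) : Rn n :=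
  fderiv ℝ Y x u + Γ x u (Y x)

/-- `∇ = D + Γ` is the Levi-Civita connection of `g`: torsion free, `∇_Y Z - ∇_Z Y = [Y, Z]`, and
metric, `u (g (Y, Z)) = g (∇_u Y, Z) + g (Y, ∇_u Z)`. -/
structure IsLeviCivita (g : Rn n → Rn n →L[ℝ] Rn n →L[ℝ] ℝ)
    (Γ : Rn n → Rn n →L[ℝ] Rn n →L[ℝ] Rn n) : Prop where
  torsionFree : ∀ Y Z : Rn n → Rn n, ContDiff ℝ ∞ Y → ContDiff ℝ ∞ Z → ∀ x,
    nabla Γ (Y x) Z x - nabla Γ (Z x) Y x = VectorField.lieBracket ℝ Y Z x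
  metric : ∀ Y Z : Rn n → Rn n, ContDiff ℝ ∞ Y → ContDiff ℝ ∞ Z → ∀ x u,
    fderiv ℝ (fun y => g y (Y y) (Z y)) x u
      = g x (nabla Γ u Y x) (Z x) + g x (Y x) (nabla Γ u Z x)

/-- Geodesic completeness: every geodesic `∇_γ' γ' = 0` is defined for all times. -/
def IsComplete (Γ : Rn n → Rn n →L[ℝ] Rn n →L[ℝ] Rn n) : Prop :=
  ∀ p v : Rn n, ∃ γ : ℝ → Rn n, ContDiff ℝ ∞ γ ∧ γ 0 = p ∧ deriv γ 0 = v ∧
    ∀ t, deriv (deriv γ) t + Γ (γ t) (deriv γ t) (deriv γ t) = 0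

/-- Curvature tensor `R(u, v) w = ∇_u ∇_v w - ∇_v ∇_u w` (`u, v, w` constant fields, `[u, v] = 0`). -/
def curvature (Γ : Rn n → Rn n →L[ℝ] Rn n →L[ℝ] Rn n) (x u v w : Rn n) : Rn n :=
  nabla Γ u (nabla Γ v fun _ => w) x - nabla Γ v (nabla Γ u fun _ => w) x

/-- `(ℝⁿ, g)` is a complete Riemannian manifold with sectional curvature at most `κ`:
`g (R(u, v) v, u) ≤ κ (g (u, u) g (v, v) - g (u, v)²)`. -/
def IsCompleteSecLE (κ : ℝ) (g : Rn n → Rn n →L[ℝ] Rn n →L[ℝ] ℝ) : Prop :=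
  IsRiemannianMetric g ∧ ∃ Γ : Rn n → Rn n →L[ℝ] Rn n →L[ℝ] Rn n, IsLeviCivita g Γ ∧
    IsComplete Γ ∧
      ∀ x u v, g x (curvature Γ x u v v) u ≤ κ * (g x u u * g x v v - g x u v ^ 2)

/-- Gram determinant of `g x` on the subspace `T`, in a Euclidean orthonormal basis of `T`. Its
square root is the ratio of the `g`-volume to the Euclidean volume on `T`. -/
def gramDet (g : Rn n → Rn n →L[ℝ] Rn n →L[ℝ] ℝ) (x : Rn n) (T : Submodule ℝ (Rn n)) : ℝ :=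
  (Matrix.of fun i j => g x (stdOrthonormalBasis ℝ T i) (stdOrthonormalBasis ℝ T j)).det

/-- Riemannian volume measure -/
def vol (g : Rn n → Rn n →L[ℝ] Rn n →L[ℝ] ℝ) : Measure (Rn n) :=
  volume.withDensity fun x => ENNReal.ofReal √(gramDet g x ⊤)

/-- `ℓ ≠ 0` is a conormal of `∂Ω` at `p`: the differential of a smooth `f` such that `Ω = {f < 0}`
near `p`, `f p = 0`. The tangent space of `∂Ω` at `p` is `ker ℓ`. -/
def IsConormal (Ω : Set (Rn n)) (p : Rn n) (ℓ : Rn n →L[ℝ] ℝ) : Prop :=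
  ℓ ≠ 0 ∧ ∃ f : Rn n → ℝ, ContDiff ℝ ∞ f ∧ HasFDerivAt f ℓ p ∧ f p = 0 ∧
    ∀ᶠ x in 𝓝 p, x ∈ Ω ↔ f x < 0

/-- A domain: a bounded open set with smooth boundary. -/
structure IsSmoothDomain (Ω : Set (Rn n)) : Prop where
  isOpen : IsOpen Ω
  isBounded : Bornology.IsBounded Ω
  smooth_boundary : ∀ p ∈ frontier Ω, ∃ ℓ, IsConormal Ω p ℓ

/-- Tangent space of `∂Ω` at `p` -/
def tangent (Ω : Set (Rn n)) (p : Rn n) : Submodule ℝ (Rn n) :=
  ⨅ (ℓ : Rn n →L[ℝ] ℝ) (_ : IsConormal Ω p ℓ), LinearMap.ker (ℓ : Rn n →ₗ[ℝ] ℝ)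

/-- Riemannian area of `∂Ω`: the area element of `g` is `√(det g|_T) dH`, `T` the tangent space,
`dH` the Euclidean `(n-1)`-dimensional Hausdorff measure. -/
def area (g : Rn n → Rn n →L[ℝ] Rn n →L[ℝ] ℝ) (Ω : Set (Rn n)) : ℝ≥0∞ :=
  ∫⁻ p in frontier Ω, ENNReal.ofReal √(gramDet g p (tangent Ω p)) ∂μHE[n - 1]

/-- Riemannian divergence `θ⁻¹ tr D(θ X)`, `θ` the density of the volume measure -/
def divergence (g : Rn n → Rn n →L[ℝ] Rn n →L[ℝ] ℝ) (X : Rn n → Rn n) (x : Rn n) : ℝ :=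
  (√(gramDet g x ⊤))⁻¹ *
    LinearMap.trace ℝ (Rn n) (fderiv ℝ (fun y => √(gramDet g y ⊤) • X y) x : Rn n →ₗ[ℝ] Rn n)

/-- De Giorgi perimeter: supremum of `∫_Ω div X` over the compactly supported `C¹` vector fields `X`
with `|X|_g ≤ 1` -/
def perimeter (g : Rn n → Rn n →L[ℝ] Rn n →L[ℝ] ℝ) (Ω : Set (Rn n)) : ℝ≥0∞ :=
  ⨆ (X : Rn n → Rn n) (_ : ContDiff ℝ 1 X ∧ HasCompactSupport X ∧ ∀ x, g x (X x) (X x) ≤ 1),
    ENNReal.ofReal (∫ x in Ω, divergence g X x ∂(vol g))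

/-- `sn r = r` for `κ = 0` and `sinh (b r) / b` for `κ < 0`, `b = √(-κ)` -/
def sn (κ r : ℝ) : ℝ := if κ = 0 then r else Real.sinh (√(-κ) * r) / √(-κ)

/-- volume of the Euclidean unit ball -/
def omega (n : ℕ) : ℝ := (volume (Metric.ball (0 : Rn n) 1)).toReal

/-- boundary area of a geodesic ball of radius `r` in the space form `M^n_κ` -/
def modelArea (n : ℕ) (κ r : ℝ) : ℝ := n * omega n * sn κ r ^ (n - 1)

/-- volume of a geodesic ball of radius `r` in the space form `M^n_κ` -/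
def modelVol (n : ℕ) (κ r : ℝ) : ℝ := n * omega n * ∫ t in (0 : ℝ)..r, sn κ t ^ (n - 1)

/-- Radius of the geodesic ball of radius `r` about `0` in the conformal ball model of `M^n_κ`,
metric `4 |dy|² / (1 + κ |y|²)²`: `r / 2` for `κ = 0`, `tanh (b r / 2) / b` for `κ < 0`. -/
def tn (κ r : ℝ) : ℝ := if κ = 0 then r / 2 else Real.tanh (√(-κ) * r / 2) / √(-κ)

/-- `(Ω, g)` is isometric to the geodesic ball of radius `r` of `M^n_κ` (conformal ball model). -/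
def IsometricToBall (κ : ℝ) (g : Rn n → Rn n →L[ℝ] Rn n →L[ℝ] ℝ) (Ω : Set (Rn n)) (r : ℝ) : Prop :=
  ∃ φ : Rn n → Rn n, ContDiffOn ℝ ∞ φ (Metric.ball 0 (tn κ r)) ∧
    BijOn φ (Metric.ball 0 (tn κ r)) Ω ∧
    ∀ y ∈ Metric.ball (0 : Rn n) (tn κ r), ∀ u v : Rn n,
      g (φ y) (fderiv ℝ φ y u) (fderiv ℝ φ y v) = 4 / (1 + κ * ‖y‖ ^ 2) ^ 2 * inner ℝ u v

/-- The generalized Cartan-Hadamard conjecture in dimension `n` for the curvature bound `κ`: if the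
volume of a domain is `𝒱_κ(r)` then the area of its boundary is at least `𝒜_κ(r)`, with equality only
for domains isometric to the geodesic ball of radius `r` of `M^n_κ`. -/
def CartanHadamardConjecture (n : ℕ) (κ : ℝ) : Prop :=
  ∀ g : Rn n → Rn n →L[ℝ] Rn n →L[ℝ] ℝ, IsCompleteSecLE κ g →
    ∀ Ω : Set (Rn n), IsSmoothDomain Ω →
      ∃ r : ℝ, 0 ≤ r ∧ vol g Ω = ENNReal.ofReal (modelVol n κ r) ∧
        ENNReal.ofReal (modelArea n κ r) ≤ area g Ω ∧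
        (area g Ω = ENNReal.ofReal (modelArea n κ r) → IsometricToBall κ g Ω r)

/-- The inequality for all bounded measurable sets, with the perimeter. -/
def PerimeterInequality (n : ℕ) (κ : ℝ) : Prop :=
  ∀ g : Rn n → Rn n →L[ℝ] Rn n →L[ℝ] ℝ, IsCompleteSecLE κ g →
    ∀ Ω : Set (Rn n), Bornology.IsBounded Ω → MeasurableSet Ω →
      ∃ r : ℝ, 0 ≤ r ∧ vol g Ω = ENNReal.ofReal (modelVol n κ r) ∧
        ENNReal.ofReal (modelArea n κ r) ≤ perimeter g Ω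

end

end Vale.Agent.Lib.P219D
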