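import Vale.Agent.Lib.P219D.Defs

/-!
# P219D: Gram determinants

`gramDet_top`: the determinant of the Gram matrix of a bilinear form is the same in all Euclidean
orthonormal bases. `gramDet_ker`: for `T = ker ℓ`, `ν` the Euclidean unit normal and `w` the vector
with `g (w, ·) = ν`, the basis `w, T` is `g`-orthogonal, hence `det g|_T = det g · ν g⁻¹ ν`.
-/

open scoped ContDiff ENNReal Topology Matrix

namespace Vale.Agent.Lib.P219D

variable {n : ℕ}

/-- Gram matrix in the standard basis -/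
noncomputable def mat (g : Rn n → Rn n →L[ℝ] Rn n →L[ℝ] ℝ) (x : Rn n) :
    Matrix (Fin n) (Fin n) ℝ :=
  Matrix.of fun i j => g x (EuclideanSpace.single i 1) (EuclideanSpace.single j 1)

/-- Gram matrices of a bilinear form in two families, the first an orthonormal basis. -/
theorem gram_change {E : Type*} [NormedAddCommGroup E] [InnerProductSpace ℝ E] {ι κ : Type*}
    [Fintype ι] [Fintype κ] (B : E →ₗ[ℝ] E →ₗ[ℝ] ℝ) (e : OrthonormalBasis ι ℝ E) (c : κ → E) :
    (Matrix.of fun i j => B (c i) (c j))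
      = (Matrix.of fun k i => inner ℝ (e k) (c i))ᵀ * (Matrix.of fun i j => B (e i) (e j))
        * (Matrix.of fun k i => inner ℝ (e k) (c i)) := by
  ext i j
  have h1 : ∀ i, c i = ∑ k, inner ℝ (e k) (c i) • e k := fun i => (e.sum_repr' (c i)).symm
  rw [Matrix.of_apply]
  conv_lhs => rw [h1 i, h1 j]
  simp only [map_sum, map_smul, LinearMap.sum_apply, LinearMap.smul_apply, Matrix.mul_apply,
    Matrix.transpose_apply, Matrix.of_apply, smul_eq_mul, Finset.sum_mul, Finset.mul_sum]
  refine Finset.sum_congr rfl fun a _ => Finset.sum_congr rfl fun b _ => ?_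
  ring

/-- Matrix of inner products of two orthonormal bases is orthogonal. -/
theorem inner_orth {E : Type*} [NormedAddCommGroup E] [InnerProductSpace ℝ E] {ι : Type*}
    [Fintype ι] [DecidableEq ι] (e c : OrthonormalBasis ι ℝ E) :
    (Matrix.of fun k i => inner ℝ (e k) (c i) : Matrix ι ι ℝ)ᵀ
      * (Matrix.of fun k i => inner ℝ (e k) (c i)) = 1 := by
  ext i j
  have h : ∑ k, inner ℝ (c i) (e k) * inner ℝ (e k) (c j) = inner ℝ (c i) (c j) :=
    e.sum_inner_mul_inner (c i) (c j)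
  have h2 : inner ℝ (c i) (c j) = (1 : Matrix ι ι ℝ) i j := by
    rw [Matrix.one_apply, orthonormal_iff_ite.mp c.orthonormal i j]
  rw [← h2, ← h]
  simp only [Matrix.mul_apply, Matrix.transpose_apply, Matrix.of_apply]
  refine Finset.sum_congr rfl fun k _ => ?_
  rw [real_inner_comm]

theorem gram_det_eq {E : Type*} [NormedAddCommGroup E] [InnerProductSpace ℝ E] {ι : Type*}
    [Fintype ι] [DecidableEq ι] (B : E →ₗ[ℝ] E →ₗ[ℝ] ℝ) (e c : OrthonormalBasis ι ℝ E) :
    (Matrix.of fun i j => B (c i) (c j)).det = (Matrix.of fun i j => B (e i) (e j)).det := by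
  have h := inner_orth e c
  have h2 := congrArg Matrix.det h
  rw [Matrix.det_mul, Matrix.det_one, Matrix.det_transpose] at h2
  rw [gram_change B e c, Matrix.det_mul, Matrix.det_mul, Matrix.det_transpose]
  linear_combination (Matrix.of fun i j => B (e i) (e j)).det * h2

/-- `g x` as a bilinear form on a subspace -/
noncomputable def bil (g : Rn n → Rn n →L[ℝ] Rn n →L[ℝ] ℝ) (x : Rn n) (T : Submodule ℝ (Rn n)) :
    T →ₗ[ℝ] T →ₗ[ℝ] ℝ :=
  LinearMap.mk₂ ℝ (fun u v : T => g x u v) (by intros; simp) (by intros; simp) (by intros; simp)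
    (by intros; simp)

theorem gramDet_eq_of_basis (g : Rn n → Rn n →L[ℝ] Rn n →L[ℝ] ℝ) (x : Rn n)
    (T : Submodule ℝ (Rn n)) {ι : Type*} [Fintype ι] [DecidableEq ι]
    (c : OrthonormalBasis ι ℝ T) :
    gramDet g x T = (Matrix.of fun i j : ι => g x (c i) (c j)).det := by
  have hcard : Fintype.card ι = Module.finrank ℝ T := (Module.finrank_eq_card_basis c.toBasis).symm
  let e : Fin (Module.finrank ℝ T) ≃ ι := (finCongr hcard.symm).trans (Fintype.equivFin ι).symm
  have h1 := gram_det_eq (bil g x T) (stdOrthonormalBasis ℝ T) (c.reindex e.symm)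
  have h2 : (Matrix.of fun i j => bil g x T ((c.reindex e.symm) i) ((c.reindex e.symm) j))
      = (Matrix.of fun i j : ι => g x (c i) (c j)).submatrix e e := by
    ext i j
    simp [bil]
  rw [h2, Matrix.det_submatrix_equiv_self] at h1
  rw [h1]
  rfl

theorem gramDet_top (g : Rn n → Rn n →L[ℝ] Rn n →L[ℝ] ℝ) (x : Rn n) :
    gramDet g x ⊤ = (mat g x).det := by
  rw [gramDet_eq_of_basis g x ⊤
    ((EuclideanSpace.basisFun (Fin n) ℝ).map (LinearIsometryEquiv.ofTop (Rn n) ⊤ rfl).symm)]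
  congr 1
  ext i j
  simp [mat]

theorem mat_posDef {g : Rn n → Rn n →L[ℝ] Rn n →L[ℝ] ℝ} (hg : IsRiemannianMetric g) (x : Rn n) :
    (mat g x).PosDef := by
  have key : ∀ v : Fin n → ℝ, v ⬝ᵥ (mat g x).mulVec v
      = g x (WithLp.toLp 2 v) (WithLp.toLp 2 v) := by
    intro v
    have h1 : (WithLp.toLp 2 v : Rn n) = ∑ i, v i • EuclideanSpace.single i (1 : ℝ) := by
      ext j
      simp [Finset.sum_apply, Pi.single_apply]
    rw [h1]
    simp only [map_sum, map_smul, sum_apply, smul_apply,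
      dotProduct, Matrix.mulVec, mat, Matrix.of_apply, smul_eq_mul, Finset.mul_sum]
    rw [Finset.sum_comm]
    refine Finset.sum_congr rfl fun a _ => Finset.sum_congr rfl fun b _ => ?_
    ring
  refine Matrix.PosDef.of_dotProduct_mulVec_pos ?_ ?_
  · ext i j
    simp [mat, hg.symm x]
  · intro v hv
    have := key v
    simp only [star_trivial]
    rw [this]
    refine hg.posDef x _ ?_
    intro h0
    exact hv (by simpa using h0)

theorem gramDet_ker {g : Rn n → Rn n →L[ℝ] Rn n →L[ℝ] ℝ} (hg : IsRiemannianMetric g) (x : Rn n)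
    {ℓ : Rn n →L[ℝ] ℝ} (hℓ : ℓ ≠ 0) :
    √(gramDet g x (LinearMap.ker (ℓ : Rn n →ₗ[ℝ] ℝ)))
      = √(mat g x).det * √(∑ i, ∑ j, (mat g x)⁻¹ i j * ℓ (EuclideanSpace.single i 1)
        * ℓ (EuclideanSpace.single j 1)) / √(∑ i, ℓ (EuclideanSpace.single i 1) ^ 2) := by
  obtain ⟨m, rfl⟩ : ∃ m, n = m + 1 := by
    rcases n with _ | m
    · exfalso
      apply hℓ
      ext v
      have : v = 0 := Subsingleton.elim _ _
      simp [this]
    · exact ⟨m, rfl⟩
  set T : Submodule ℝ (Rn (m + 1)) := LinearMap.ker (ℓ : Rn (m + 1) →ₗ[ℝ] ℝ) with hT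
  have hℓ' : (ℓ : Rn (m + 1) →ₗ[ℝ] ℝ) ≠ 0 := by
    intro h
    apply hℓ
    ext v
    exact LinearMap.congr_fun h v
  have hrank : Module.finrank ℝ T = m := by
    have h1 := LinearMap.finrank_range_add_finrank_ker (ℓ : Rn (m + 1) →ₗ[ℝ] ℝ)
    have h2 : Module.finrank ℝ (LinearMap.range (ℓ : Rn (m + 1) →ₗ[ℝ] ℝ)) = 1 := by
      rw [LinearMap.range_eq_top.mpr (LinearMap.surjective hℓ')]
      simp
    rw [h2, finrank_euclideanSpace, Fintype.card_fin] at h1
    change Module.finrank ℝ (LinearMap.ker (ℓ : Rn (m + 1) →ₗ[ℝ] ℝ)) = m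
    omega
  -- the vector of partial values
  set S : ℝ := ∑ i, ℓ (EuclideanSpace.single i 1) ^ 2 with hS
  set a : Rn (m + 1) := WithLp.toLp 2 (fun i => ℓ (EuclideanSpace.single i 1)) with ha
  have hainner : ∀ v, inner ℝ a v = ℓ v := by
    intro v
    have h1 : v = ∑ i, v i • EuclideanSpace.single i (1 : ℝ) := by
      ext j
      simp [Finset.sum_apply, Pi.single_apply]
    conv_rhs => rw [h1]
    rw [map_sum, PiLp.inner_apply]
    refine Finset.sum_congr rfl fun i _ => ?_
    simp [ha]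
  have haS : ‖a‖ ^ 2 = S := by
    rw [EuclideanSpace.norm_sq_eq]
    simp [ha, hS]
  have ha0 : a ≠ 0 := by
    intro h
    apply hℓ
    ext v
    rw [← hainner v, h]
    simp
  have hanorm : 0 < ‖a‖ := norm_pos_iff.mpr ha0
  have hS0 : 0 < S := by rw [← haS]; positivity
  set ν : Rn (m + 1) := ‖a‖⁻¹ • a with hν
  let bT : OrthonormalBasis (Fin m) ℝ T := (stdOrthonormalBasis ℝ T).reindex (finCongr hrank)
  let c : Fin (m + 1) → Rn (m + 1) := Fin.cons ν (fun i => (bT i : Rn (m + 1)))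
  have hc : Orthonormal ℝ c := by
    have hνT : ∀ i, inner ℝ ν (bT i : Rn (m + 1)) = 0 := by
      intro i
      rw [hν, real_inner_smul_left, hainner]
      have : ℓ (bT i : Rn (m + 1)) = 0 := (bT i).2
      rw [this, mul_zero]
    have hνν : inner ℝ ν ν = 1 := by
      rw [real_inner_self_eq_norm_sq, hν, norm_smul, norm_inv, norm_norm,
        inv_mul_cancel₀ hanorm.ne', one_pow]
    rw [orthonormal_iff_ite]
    intro i j
    refine Fin.cases ?_ (fun i => ?_) i <;> refine Fin.cases ?_ (fun j => ?_) j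
    · simpa [c] using hνν
    · simp only [c, Fin.cons_zero, Fin.cons_succ, hνT]
      rw [if_neg (Fin.succ_ne_zero j).symm]
    · simp only [c, Fin.cons_zero, Fin.cons_succ]
      rw [real_inner_comm, hνT, if_neg (Fin.succ_ne_zero i)]
    · simp only [c, Fin.cons_succ, Fin.succ_inj]
      have := orthonormal_iff_ite.mp bT.orthonormal i j
      rwa [Submodule.coe_inner] at this
  have hcard : Fintype.card (Fin (m + 1)) = Module.finrank ℝ (Rn (m + 1)) := by simp
  let cb : OrthonormalBasis (Fin (m + 1)) ℝ (Rn (m + 1)) :=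
    (basisOfOrthonormalOfCardEqFinrank hc hcard).toOrthonormalBasis (by simpa using hc)
  have hcb : ∀ i, cb i = c i := by
    intro i
    simp [cb]
  let B : Rn (m + 1) →ₗ[ℝ] Rn (m + 1) →ₗ[ℝ] ℝ :=
    LinearMap.mk₂ ℝ (fun u v => g x u v) (by intros; simp) (by intros; simp) (by intros; simp)
      (by intros; simp)
  set P : Matrix (Fin (m + 1)) (Fin (m + 1)) ℝ :=
    Matrix.of fun k i => inner ℝ ((EuclideanSpace.basisFun (Fin (m + 1)) ℝ) k) (cb i) with hP
  set G := mat g x with hG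
  have hGB : (Matrix.of fun i j => B ((EuclideanSpace.basisFun (Fin (m + 1)) ℝ) i)
      ((EuclideanSpace.basisFun (Fin (m + 1)) ℝ) j)) = G := by
    ext i j
    simp [B, hG, mat]
  set A : Matrix (Fin (m + 1)) (Fin (m + 1)) ℝ := Matrix.of fun i j => B (cb i) (cb j) with hA
  have hAP : A = Pᵀ * G * P := by
    rw [hA, gram_change B (EuclideanSpace.basisFun (Fin (m + 1)) ℝ) cb, hGB]
  have hPP : Pᵀ * P = 1 := inner_orth _ _
  have hPP' : P * Pᵀ = 1 := mul_eq_one_comm.mp hPP
  have hGpos : G.PosDef := mat_posDef hg x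
  have hGdet : 0 < G.det := hGpos.det_pos
  have hGu : IsUnit G.det := hGdet.ne'.isUnit
  have hAdet : A.det = G.det := by
    have := gram_det_eq B (EuclideanSpace.basisFun (Fin (m + 1)) ℝ) cb
    rw [hGB] at this
    exact this
  have hAinv : A⁻¹ = Pᵀ * G⁻¹ * P := by
    apply Matrix.inv_eq_right_inv
    rw [hAP]
    calc Pᵀ * G * P * (Pᵀ * G⁻¹ * P) = Pᵀ * G * (P * Pᵀ) * G⁻¹ * P := by
          simp only [Matrix.mul_assoc]
      _ = Pᵀ * (G * G⁻¹) * P := by rw [hPP', Matrix.mul_one]; simp only [Matrix.mul_assoc]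
      _ = 1 := by rw [Matrix.mul_nonsing_inv _ hGu, Matrix.mul_one, hPP]
  have hgd : gramDet g x T = (A.submatrix Fin.succ Fin.succ).det := by
    rw [gramDet_eq_of_basis g x T bT]
    congr 1
    ext i j
    simp [hA, B, hcb, c]
  have hadj : A.adjugate 0 0 = (A.submatrix Fin.succ Fin.succ).det := by
    have h := Matrix.adjugate_fin_succ_eq_det_submatrix A 0 0
    simpa using h
  have hinv : A.adjugate 0 0 = A.det * A⁻¹ 0 0 := by
    have hu : A.det ≠ 0 := by rw [hAdet]; exact hGdet.ne'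
    rw [Matrix.inv_def, Matrix.smul_apply, smul_eq_mul, Ring.inverse_eq_inv', ← mul_assoc,
      mul_inv_cancel₀ hu, one_mul]
  have hP0 : ∀ k, P k 0 = ‖a‖⁻¹ * ℓ (EuclideanSpace.single k 1) := by
    intro k
    simp only [hP, Matrix.of_apply, hcb, c, Fin.cons_zero, hν]
    rw [real_inner_comm, real_inner_smul_left, hainner]
    simp
  have hval : A⁻¹ 0 0 = (∑ i, ∑ j, G⁻¹ i j * ℓ (EuclideanSpace.single i 1)
      * ℓ (EuclideanSpace.single j 1)) / S := by
    rw [hAinv]
    simp only [Matrix.mul_apply, Matrix.transpose_apply, hP0, Finset.sum_mul]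
    rw [Finset.sum_comm, ← haS, Finset.sum_div]
    refine Finset.sum_congr rfl fun i _ => ?_
    rw [Finset.sum_div]
    refine Finset.sum_congr rfl fun j _ => ?_
    field_simp
  rw [hgd, ← hadj, hinv, hAdet, hval, Real.sqrt_mul hGdet.le, Real.sqrt_div' _ hS0.le, mul_div_assoc]

end Vale.Agent.Lib.P219D
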