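import Vale.Agent.Lib.P219D.Defs

/-!
# P219D: the model functions
-/

open scoped ContDiff ENNReal Topology
open MeasureTheory Set

namespace Vale.Agent.Lib.P219D

theorem sn_zero (r : ℝ) : sn 0 r = r := if_pos rfl

theorem sn_neg {κ : ℝ} (hκ : κ < 0) (r : ℝ) : sn κ r = Real.sinh (√(-κ) * r) / √(-κ) :=
  if_neg hκ.ne

theorem continuous_sn {κ : ℝ} (hκ : κ ≤ 0) : Continuous (sn κ) := by
  rcases hκ.eq_or_lt with h | h
  · subst h
    have : sn 0 = fun r => r := funext sn_zero
    rw [this]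
    exact continuous_id
  · have : sn κ = fun r => Real.sinh (√(-κ) * r) / √(-κ) := funext (sn_neg h)
    rw [this]
    exact (Real.continuous_sinh.comp (continuous_const.mul continuous_id)).div_const _

theorem le_sn {κ : ℝ} (hκ : κ ≤ 0) {r : ℝ} (hr : 0 ≤ r) : r ≤ sn κ r := by
  rcases hκ.eq_or_lt with h | h
  · subst h
    rw [sn_zero]
  · have hb : 0 < √(-κ) := Real.sqrt_pos.2 (by linarith)
    rw [sn_neg h, le_div_iff₀ hb]
    have := Real.self_le_sinh_iff.2 (by positivity : 0 ≤ √(-κ) * r)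
    linarith [mul_comm r √(-κ)]

theorem omega_pos {n : ℕ} : 0 < omega n := by
  unfold omega
  exact ENNReal.toReal_pos (Metric.measure_ball_pos _ _ one_pos).ne' measure_ball_lt_top.ne

theorem continuous_modelVol {n : ℕ} {κ : ℝ} (hκ : κ ≤ 0) : Continuous (modelVol n κ) := by
  unfold modelVol
  refine continuous_const.mul ?_
  exact intervalIntegral.continuous_primitive
    (fun a b => ((continuous_sn hκ).pow _).intervalIntegrable _ _) 0

theorem modelVol_zero_r (n : ℕ) (κ : ℝ) : modelVol n κ 0 = 0 := by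
  unfold modelVol
  simp

theorem modelVol_zero {n : ℕ} (hn : 1 ≤ n) (r : ℝ) : modelVol n 0 r = omega n * r ^ n := by
  unfold modelVol
  have h1 : ∫ t in (0 : ℝ)..r, sn 0 t ^ (n - 1) = r ^ n / n := by
    simp only [sn_zero]
    rw [integral_pow]
    have : n - 1 + 1 = n := by omega
    rw [this, zero_pow (by omega), sub_zero]
    congr 1
    have h2 : ((n - 1 : ℕ) : ℝ) + 1 = ((n - 1 + 1 : ℕ) : ℝ) := by push_cast; ring
    rw [h2, this]
  have hn0 : (n : ℝ) ≠ 0 := by
    have : 0 < n := by omega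
    positivity
  rw [h1]
  field_simp

theorem modelVol_lower {n : ℕ} (hn : 1 ≤ n) {κ : ℝ} (hκ : κ ≤ 0) {r : ℝ} (hr : 0 ≤ r) :
    omega n * r ^ n ≤ modelVol n κ r := by
  rw [← modelVol_zero hn]
  unfold modelVol
  refine mul_le_mul_of_nonneg_left ?_ (by have := omega_pos (n := n); positivity)
  refine intervalIntegral.integral_mono_on hr
    (((continuous_sn le_rfl).pow _).intervalIntegrable _ _)
    (((continuous_sn hκ).pow _).intervalIntegrable _ _) fun t ht => ?_
  rw [sn_zero]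
  exact pow_le_pow_left₀ ht.1 (le_sn hκ ht.1) _

/-- every nonnegative real is the volume of a model ball -/
theorem exists_modelVol {n : ℕ} (hn : 1 ≤ n) {κ : ℝ} (hκ : κ ≤ 0) {V : ℝ} (hV : 0 ≤ V) :
    ∃ r, 0 ≤ r ∧ modelVol n κ r = V := by
  have hom := omega_pos (n := n)
  obtain ⟨S, hS⟩ : ∃ S, S = max 1 (V / omega n) := ⟨_, rfl⟩
  have hS1 : 1 ≤ S := by rw [hS]; exact le_max_left _ _
  have hSV : V ≤ omega n * S := by
    rw [← div_le_iff₀' hom, hS]
    exact le_max_right _ _
  have hS0 : 0 ≤ S := by linarith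
  have h1 : V ≤ modelVol n κ S := by
    refine hSV.trans (le_trans ?_ (modelVol_lower hn hκ hS0))
    refine mul_le_mul_of_nonneg_left ?_ hom.le
    exact le_self_pow₀ hS1 (by omega)
  have h2 := intermediate_value_Icc hS0 (continuous_modelVol (n := n) hκ).continuousOn
  obtain ⟨r, hr, hr'⟩ := h2 ⟨by rw [modelVol_zero_r]; exact hV, h1⟩
  exact ⟨r, hr.1, hr'⟩

theorem modelArea_zero {n : ℕ} (r : ℝ) : modelArea n 0 r = n * omega n * r ^ (n - 1) := by
  unfold modelArea
  rw [sn_zero]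

/-- the Euclidean profile at the volume of the ball of radius `r` -/
theorem profile_modelVol {n : ℕ} (hn : 2 ≤ n) {r : ℝ} (hr : 0 ≤ r) :
    ENNReal.ofReal (n * omega n ^ ((1 : ℝ) / n))
      * ENNReal.ofReal (modelVol n 0 r) ^ (((n : ℝ) - 1) / n) = ENNReal.ofReal (modelArea n 0 r) := by
  have hom := omega_pos (n := n)
  have hn0 : (0 : ℝ) < n := by
    have : 0 < n := by omega
    exact_mod_cast this
  have hn1 : (1 : ℝ) ≤ n := by
    have : 1 ≤ n := by omega
    exact_mod_cast this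
  have he : 0 ≤ ((n : ℝ) - 1) / n := div_nonneg (by linarith) hn0.le
  rw [modelVol_zero (by omega), modelArea_zero,
    ENNReal.ofReal_rpow_of_nonneg (by positivity) he, ← ENNReal.ofReal_mul (by positivity)]
  congr 1
  rw [Real.mul_rpow hom.le (by positivity), ← Real.rpow_natCast r n, ← Real.rpow_mul hr]
  have h1 : (n : ℝ) * (((n : ℝ) - 1) / n) = ((n - 1 : ℕ) : ℝ) := by
    rw [Nat.cast_sub (by omega)]
    field_simp
    simp
  rw [h1, Real.rpow_natCast]
  have h2 : omega n ^ ((1 : ℝ) / n) * omega n ^ (((n : ℝ) - 1) / n) = omega n := by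
    rw [← Real.rpow_add hom]
    have : (1 : ℝ) / n + ((n : ℝ) - 1) / n = 1 := by
      field_simp
      ring
    rw [this, Real.rpow_one]
  calc (n : ℝ) * omega n ^ ((1 : ℝ) / n) * (omega n ^ (((n : ℝ) - 1) / n) * r ^ (n - 1))
      = n * (omega n ^ ((1 : ℝ) / n) * omega n ^ (((n : ℝ) - 1) / n)) * r ^ (n - 1) := by ring
    _ = n * omega n * r ^ (n - 1) := by rw [h2]

end Vale.Agent.Lib.P219D
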