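import Vale.Agent.Lib.P219D.Metric
import Vale.Agent.Lib.P219D.Model
import Vale.Agent.Lib.P219.Ri.CoDefs
import Vale.Agent.Lib.P219.Co.DefsNegRi

/-!
# P219D: isometries with model balls
-/

open scoped ContDiff ENNReal Topology
open MeasureTheory Set

namespace Vale.Agent.Lib.P219D

variable {n : ℕ}

theorem pd_eq {φ : Rn n → Rn n} {w : Rn n} (hd : DifferentiableAt ℝ φ w) (i k : Fin n) :
    fderiv ℝ φ w (EuclideanSpace.single i 1) k = P219.Co.pd i (fun y => φ y k) w := by
  have h := ((EuclideanSpace.proj (𝕜 := ℝ) k : Rn n →L[ℝ] ℝ).hasFDerivAt.comp w hd.hasFDerivAt)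
  have h1 : fderiv ℝ (fun y => φ y k) w
      = (EuclideanSpace.proj (𝕜 := ℝ) k : Rn n →L[ℝ] ℝ).comp (fderiv ℝ φ w) := h.fderiv
  unfold P219.Co.pd
  rw [h1]
  rfl

theorem g_apply (g : Rn n → Rn n →L[ℝ] Rn n →L[ℝ] ℝ) (x a b : Rn n) :
    g x a b = ∑ k, ∑ l, mat g x k l * a k * b l := by
  have := P219.Co.bil_apply (mat g x) a b
  rw [← this]
  conv_lhs => rw [← congrFun (toG_mat g) x]
  rfl

/-- conformal in coordinates implies conformal -/
theorem pullback_eq {g : Rn n → Rn n →L[ℝ] Rn n →L[ℝ] ℝ} {φ : Rn n → Rn n} {y : Rn n}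
    (hd : DifferentiableAt ℝ φ y) {c : ℝ}
    (h : ∀ i j, ∑ k, ∑ l, mat g (φ y) k l * P219.Co.pd i (fun z => φ z k) y
      * P219.Co.pd j (fun z => φ z l) y = if i = j then c else 0) (u v : Rn n) :
    g (φ y) (fderiv ℝ φ y u) (fderiv ℝ φ y v) = c * inner ℝ u v := by
  have h1 : ∀ i j, g (φ y) (fderiv ℝ φ y (EuclideanSpace.single i 1))
      (fderiv ℝ φ y (EuclideanSpace.single j 1)) = if i = j then c else 0 := by
    intro i j
    rw [g_apply, ← h i j]
    simp only [pd_eq hd]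
  have h2 : g (φ y) (fderiv ℝ φ y u) (fderiv ℝ φ y v)
      = ∑ i, u i * ∑ j, v j * (if i = j then c else 0) := by
    conv_lhs => rw [sum_single u, map_sum, map_sum, sum_apply]
    refine Finset.sum_congr rfl fun i _ => ?_
    conv_lhs => rw [sum_single v]
    rw [map_smul, map_smul, smul_apply, map_sum, map_sum, smul_eq_mul]
    congr 1
    refine Finset.sum_congr rfl fun j _ => ?_
    rw [map_smul, map_smul, smul_eq_mul, h1]
  rw [h2, PiLp.inner_apply, Finset.mul_sum]
  refine Finset.sum_congr rfl fun i _ => ?_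
  simp only [mul_ite, mul_zero, Finset.sum_ite_eq, Finset.mem_univ, if_true]
  rw [RCLike.inner_apply]
  simp only [conj_trivial]
  ring

theorem isometric_neg {κ : ℝ} (hκ : κ < 0) {g : Rn n → Rn n →L[ℝ] Rn n →L[ℝ] ℝ} {Ω : Set (Rn n)}
    {r : ℝ} (h : P219.Co.IsometricToModelBall κ (mat g) Ω r) : IsometricToBall κ g Ω r := by
  have htn : P219.Co.modelRadius κ r = tn κ r := by
    unfold P219.Co.modelRadius tn
    rw [if_neg hκ.ne]
  obtain ⟨φ, h1, h2, h3⟩ := h
  rw [htn] at h1 h2 h3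
  refine ⟨φ, h1, h2, fun y hy u v => ?_⟩
  have hd : DifferentiableAt ℝ φ y :=
    ((h1.differentiableOn (by simp)) _ hy).differentiableAt (Metric.isOpen_ball.mem_nhds hy)
  exact pullback_eq hd (h3 y hy) u v

/-- volume of a domain isometric to a Euclidean ball -/
theorem vol_of_isometric {g : Rn n → Rn n →L[ℝ] Rn n →L[ℝ] ℝ} (hg : IsRiemannianMetric g)
    (hn : 1 ≤ n) {Ω : Set (Rn n)} {R : ℝ} (hR : 0 ≤ R) (h : P219.Co.IsometricToBall (mat g) Ω R) :
    vol g Ω = ENNReal.ofReal (omega n * R ^ n) := by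
  obtain ⟨φ, h1, h2, h3⟩ := h
  have hM := isMetric_mat hg
  have hdiff : ∀ x, DifferentiableAt ℝ φ x := fun x => h1.differentiable (by simp) x
  have hm : MeasurableSet (Metric.ball (0 : Rn n) R) := measurableSet_ball
  have him : φ '' Metric.ball 0 R = Ω := h2.image_eq
  have hΩm : MeasurableSet Ω := by
    rw [← him]
    exact hm.image_of_continuousOn_injOn h1.continuous.continuousOn h2.injOn
  have hdet : ∀ x ∈ Metric.ball (0 : Rn n) R,
      |(fderiv ℝ φ x).det| * √(mat g (φ x)).det = 1 := by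
    intro x hx
    obtain ⟨M, hMd⟩ : ∃ M : Matrix (Fin n) (Fin n) ℝ,
        M = LinearMap.toMatrix (EuclideanSpace.basisFun (Fin n) ℝ).toBasis
          (EuclideanSpace.basisFun (Fin n) ℝ).toBasis (fderiv ℝ φ x : Rn n →ₗ[ℝ] Rn n) := ⟨_, rfl⟩
    have hMe : ∀ k i, M k i = P219.Co.pd i (fun z => φ z k) x := by
      intro k i
      rw [← pd_eq (hdiff x), hMd, LinearMap.toMatrix_apply]
      simp
    have hprod : M.transpose * mat g (φ x) * M = 1 := by
      ext i j
      rw [Matrix.mul_apply]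
      have h4 := h3 x hx i j
      rw [Matrix.one_apply, ← h4]
      simp only [Matrix.mul_apply, Matrix.transpose_apply, Finset.sum_mul]
      rw [Finset.sum_comm]
      refine Finset.sum_congr rfl fun k _ => Finset.sum_congr rfl fun l _ => ?_
      rw [hMe, hMe]
      ring
    have hdM : M.det ^ 2 * (mat g (φ x)).det = 1 := by
      have := congrArg Matrix.det hprod
      rw [Matrix.det_mul, Matrix.det_mul, Matrix.det_transpose, Matrix.det_one] at this
      rw [← this]
      ring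
    have hdd : (fderiv ℝ φ x).det = M.det := by
      rw [hMd]
      unfold ContinuousLinearMap.det
      rw [LinearMap.det_toMatrix]
    have hp := P219.Co.det_pos hM (φ x)
    rw [hdd, ← Real.sqrt_sq_eq_abs, ← Real.sqrt_mul (sq_nonneg _), hdM, Real.sqrt_one]
  unfold vol
  rw [withDensity_apply _ hΩm, ← him,
    lintegral_image_eq_lintegral_abs_det_fderiv_mul volume hm
      (fun x _ => (hdiff x).hasFDerivAt.hasFDerivWithinAt) h2.injOn]
  have h5 : ∫⁻ x in Metric.ball (0 : Rn n) R,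
      ENNReal.ofReal |(fderiv ℝ φ x).det| * ENNReal.ofReal √(gramDet g (φ x) ⊤)
      = ∫⁻ _ in Metric.ball (0 : Rn n) R, 1 := by
    refine setLIntegral_congr_fun hm fun x hx => ?_
    rw [gramDet_top, ← ENNReal.ofReal_mul (abs_nonneg _), hdet x hx, ENNReal.ofReal_one]
  rw [h5, setLIntegral_one]
  have h6 : volume (Metric.ball (0 : Rn n) R)
      = ENNReal.ofReal (R ^ n) * volume (Metric.ball (0 : Rn n) 1) := by
    have hne : Nonempty (Fin n) := ⟨⟨0, by omega⟩⟩
    rw [Measure.addHaar_ball volume (0 : Rn n) hR]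
    simp
  rw [h6, mul_comm (omega n), ENNReal.ofReal_mul (by positivity)]
  congr 1
  unfold omega
  rw [ENNReal.ofReal_toReal measure_ball_lt_top.ne]

theorem isometric_zero {g : Rn n → Rn n →L[ℝ] Rn n →L[ℝ] ℝ} (hg : IsRiemannianMetric g)
    (hn : 1 ≤ n) {Ω : Set (Rn n)} {r : ℝ} (hr : 0 ≤ r)
    (hv : vol g Ω = ENNReal.ofReal (modelVol n 0 r))
    (h : ∃ R, 0 ≤ R ∧ P219.Co.IsometricToBall (mat g) Ω R) : IsometricToBall 0 g Ω r := by
  obtain ⟨R, hR, hiso⟩ := h
  have hom := omega_pos (n := n)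
  have hRr : R = r := by
    have h1 := vol_of_isometric hg hn hR hiso
    rw [hv, modelVol_zero hn, ENNReal.ofReal_eq_ofReal_iff (by positivity) (by positivity)] at h1
    have h2 : r ^ n = R ^ n := mul_left_cancel₀ hom.ne' h1
    exact ((pow_left_inj₀ hr hR (by omega)).1 h2).symm
  subst hRr
  obtain ⟨φ, h1, h2, h3⟩ := hiso
  have htn : tn 0 R = R / 2 := if_pos rfl
  have hmem : ∀ y : Rn n, y ∈ Metric.ball (0 : Rn n) (R / 2) ↔
      (2 : ℝ) • y ∈ Metric.ball (0 : Rn n) R := by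
    intro y
    rw [mem_ball_zero_iff, mem_ball_zero_iff, norm_smul, Real.norm_of_nonneg (by norm_num)]
    constructor <;> intro h <;> linarith
  have hsm : ContDiff ℝ ∞ (fun y : Rn n => (2 : ℝ) • y) := contDiff_const_smul _
  refine ⟨fun y => φ ((2 : ℝ) • y), ?_, ?_, ?_⟩
  · exact (h1.comp hsm).contDiffOn
  · rw [htn]
    refine h2.comp ⟨fun y hy => (hmem y).1 hy, ?_, ?_⟩
    · intro a _ b _ hab
      exact smul_right_injective _ two_ne_zero hab
    · intro z hz
      refine ⟨(2 : ℝ)⁻¹ • z, ?_, ?_⟩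
      · rw [hmem, smul_smul, mul_inv_cancel₀ two_ne_zero, one_smul]
        exact hz
      · simp only [smul_smul, mul_inv_cancel₀ (two_ne_zero (α := ℝ)), one_smul]
  · intro y hy u v
    rw [htn] at hy
    have hy' := (hmem y).1 hy
    have hd : DifferentiableAt ℝ φ ((2 : ℝ) • y) := h1.differentiable (by simp) _
    have hd2 : HasFDerivAt (fun y : Rn n => φ ((2 : ℝ) • y))
        ((2 : ℝ) • fderiv ℝ φ ((2 : ℝ) • y)) y := by
      have h4 : HasFDerivAt (fun y : Rn n => (2 : ℝ) • y)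
          ((2 : ℝ) • ContinuousLinearMap.id ℝ (Rn n)) y :=
        ((2 : ℝ) • ContinuousLinearMap.id ℝ (Rn n)).hasFDerivAt
      have h5 := hd.hasFDerivAt.comp y h4
      refine h5.congr_fderiv ?_
      ext v
      simp
    have h6 := pullback_eq hd (h3 _ hy') u v
    rw [hd2.fderiv]
    simp only [smul_apply, map_smul, smul_eq_mul]
    rw [h6]
    ring

end Vale.Agent.Lib.P219D
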