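import Vale.Agent.Lib.P219D.Area
import Vale.Agent.Lib.P219D.Iso

/-!
# P219D: from the coordinate form to the coordinate-free form
-/

open scoped ContDiff ENNReal Topology
open MeasureTheory Set

namespace Vale.Agent.Lib.P219D

variable {n : ℕ}

theorem vol_lt_top {g : Rn n → Rn n →L[ℝ] Rn n →L[ℝ] ℝ} (hg : IsRiemannianMetric g)
    {Ω : Set (Rn n)} (hΩ : Bornology.IsBounded Ω) : vol g Ω < ⊤ := by
  have hc : Continuous fun x => √(gramDet g x ⊤) := by
    have h : (fun x => √(gramDet g x ⊤)) = fun x => √(mat g x).det := by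
      funext x
      rw [gramDet_top]
    rw [h]
    have hM := isMetric_mat hg
    exact (P219.Co.conv_det_smooth hM.smooth).continuous.sqrt
  have : IsLocallyFiniteMeasure (vol g) := IsLocallyFiniteMeasure.withDensity_ofReal hc
  exact hΩ.measure_lt_top

theorem exists_r (hn : 1 ≤ n) {κ : ℝ} (hκ : κ ≤ 0) {g : Rn n → Rn n →L[ℝ] Rn n →L[ℝ] ℝ}
    (hg : IsRiemannianMetric g) {Ω : Set (Rn n)} (hΩ : Bornology.IsBounded Ω) :
    ∃ r, 0 ≤ r ∧ vol g Ω = ENNReal.ofReal (modelVol n κ r) := by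
  obtain ⟨r, hr, h⟩ := exists_modelVol hn hκ (ENNReal.toReal_nonneg (a := vol g Ω))
  refine ⟨r, hr, ?_⟩
  rw [h, ENNReal.ofReal_toReal (vol_lt_top hg hΩ).ne]

theorem profile_eq (hn : 2 ≤ n) {r : ℝ} (hr : 0 ≤ r) :
    P219.Co.profile n (ENNReal.ofReal (modelVol n 0 r)) = ENNReal.ofReal (modelArea n 0 r) :=
  profile_modelVol hn hr

/-- curvature `≤ 0` -/
theorem conjecture_zero (hn : 2 ≤ n) (h1 : P219.Co.CartanHadamardInequality n)
    (h2 : P219.Co.CartanHadamardRigidity n) :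
    CartanHadamardConjecture n 0 ∧ PerimeterInequality n 0 := by
  refine ⟨fun g hg Ω hΩ => ?_, fun g hg Ω hΩ hm => ?_⟩
  · have hM := isCompleteSecLe_mat hg
    have hC : P219.Co.IsCartanHadamard (mat g) := ⟨hM.metric, hM.complete, hM.sec_le⟩
    obtain ⟨r, hr, hv⟩ := exists_r (by omega) le_rfl hg.1 hΩ.isBounded
    obtain ⟨ρ, hρ, hset, harea⟩ := exists_rho hΩ
    refine ⟨r, hr, hv, ?_, fun heq => ?_⟩
    · have := (h1 (mat g) hC).2 ρ hρ
      rw [hset, ← vol_eq, hv, profile_eq hn hr, ← harea g hg.1] at this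
      exact this
    · refine isometric_zero hg.1 (by omega) hr hv ?_
      rw [← hset]
      refine h2 (mat g) hC ρ hρ ?_
      rw [hset, ← vol_eq, hv, profile_eq hn hr, ← harea g hg.1]
      exact heq
  · have hM := isCompleteSecLe_mat hg
    have hC : P219.Co.IsCartanHadamard (mat g) := ⟨hM.metric, hM.complete, hM.sec_le⟩
    obtain ⟨r, hr, hv⟩ := exists_r (by omega) le_rfl hg.1 hΩ
    refine ⟨r, hr, hv, ?_⟩
    have := (h1 (mat g) hC).1 Ω hΩ hm
    rw [← vol_eq, hv, profile_eq hn hr, ← perimeter_eq hg.1] at this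
    exact this

theorem modelArea_neg {κ : ℝ} (hκ : κ < 0) (r : ℝ) :
    P219.Co.modelArea n κ r = modelArea n κ r := by
  unfold P219.Co.modelArea modelArea P219.Co.sn
  rw [sn_neg hκ]
  rfl

theorem modelVol_neg {κ : ℝ} (hκ : κ < 0) (r : ℝ) :
    P219.Co.modelVolume n κ r = modelVol n κ r := by
  unfold P219.Co.modelVolume modelVol P219.Co.sn
  simp only [sn_neg hκ]
  rfl

/-- curvature `≤ κ < 0` -/
theorem conjecture_neg (hn : 2 ≤ n) {κ : ℝ} (hκ : κ < 0)
    (h1 : ∀ r, 0 ≤ r → P219.Co.ModelInequality n κ r)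
    (h2 : ∀ r, 0 ≤ r → P219.Co.ModelRigidity n κ r) :
    CartanHadamardConjecture n κ ∧ PerimeterInequality n κ := by
  refine ⟨fun g hg Ω hΩ => ?_, fun g hg Ω hΩ hm => ?_⟩
  · have hM := isCompleteSecLe_mat hg
    obtain ⟨r, hr, hv⟩ := exists_r (by omega) hκ.le hg.1 hΩ.isBounded
    obtain ⟨ρ, hρ, hset, harea⟩ := exists_rho hΩ
    refine ⟨r, hr, hv, ?_, fun heq => ?_⟩
    · have := (h1 r hr (mat g) hM).2 ρ hρ
      rw [hset, ← vol_eq, hv, ← harea g hg.1, modelVol_neg hκ, modelArea_neg hκ] at this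
      exact this le_rfl
    · refine isometric_neg hκ ?_
      rw [← hset]
      refine h2 r hr (mat g) hM ρ hρ ?_ ?_
      · rw [hset, ← vol_eq, hv, modelVol_neg hκ]
      · rw [← harea g hg.1, modelArea_neg hκ]
        exact heq
  · have hM := isCompleteSecLe_mat hg
    obtain ⟨r, hr, hv⟩ := exists_r (by omega) hκ.le hg.1 hΩ
    refine ⟨r, hr, hv, ?_⟩
    have := (h1 r hr (mat g) hM).1 Ω hΩ hm
    rw [← vol_eq, hv, ← perimeter_eq hg.1, modelVol_neg hκ, modelArea_neg hκ] at this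
    exact this le_rfl

end Vale.Agent.Lib.P219D
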