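import Vale.Agent.Lib.P219D.Gram
import Vale.Agent.Lib.P219.Co.ConvB
import Vale.Agent.Lib.P219.Co.ConvC
import Vale.Agent.Lib.P219.Co.DefsNeg
import Vale.Agent.Lib.P219.Geo.Bridge
import Vale.Agent.Lib.P219.K.FinalH

/-!
# P219D: from the metric as a field of forms to the matrix of the metric
-/

open scoped ContDiff ENNReal Topology
open MeasureTheory Set

namespace Vale.Agent.Lib.P219D

open Vale.Agent.Lib (P219.Co.toG P219.Co.toΓ)

variable {n : ℕ}

theorem sum_single (v : Rn n) : v = ∑ i, v i • (EuclideanSpace.single i (1 : ℝ) : Rn n) := by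
  ext k
  simp [Finset.sum_apply, Pi.single_apply]

theorem toG_mat (g : Rn n → Rn n →L[ℝ] Rn n →L[ℝ] ℝ) : P219.Co.toG (mat g) = g := by
  funext x
  ext v w
  have h : P219.Co.toG (mat g) x v w = ∑ i, ∑ j, mat g x i j * v i * w j :=
    P219.Co.bil_apply _ _ _
  rw [h]
  have hr : g x v w = ∑ i, v i * ∑ j, w j * g x (EuclideanSpace.single i 1)
      (EuclideanSpace.single j 1) := by
    conv_lhs => rw [sum_single v]
    rw [map_sum, sum_apply]
    refine Finset.sum_congr rfl fun i _ => ?_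
    conv_lhs => rw [sum_single w]
    rw [map_smul, smul_apply, map_sum, smul_eq_mul]
    congr 1
    refine Finset.sum_congr rfl fun j _ => ?_
    rw [map_smul, smul_eq_mul]
  rw [hr]
  refine Finset.sum_congr rfl fun i _ => ?_
  rw [Finset.mul_sum]
  refine Finset.sum_congr rfl fun j _ => ?_
  rw [mat, Matrix.of_apply]
  ring

theorem isMetric_mat {g : Rn n → Rn n →L[ℝ] Rn n →L[ℝ] ℝ} (hg : IsRiemannianMetric g) :
    P219.Co.IsMetric (mat g) := by
  refine ⟨fun i j => ?_, fun x i j => ?_, fun x v hv => ?_⟩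
  · exact (hg.smooth.clm_apply contDiff_const).clm_apply contDiff_const
  · exact hg.symm x _ _
  · have h0 : (WithLp.toLp 2 v : Rn n) ≠ 0 := by
      intro h
      apply hv
      have := congrArg WithLp.ofLp h
      simpa using this
    have h1 := hg.posDef x _ h0
    have h2 : P219.Co.toG (mat g) x (WithLp.toLp 2 v) (WithLp.toLp 2 v)
        = ∑ i, ∑ j, mat g x i j * v i * v j := P219.Co.bil_apply _ _ _
    rw [toG_mat] at h2
    rw [← h2]
    exact h1

theorem lc_of {g : Rn n → Rn n →L[ℝ] Rn n →L[ℝ] ℝ} (hg : IsRiemannianMetric g)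
    {Γ : Rn n → Rn n →L[ℝ] Rn n →L[ℝ] Rn n} (h : IsLeviCivita g Γ) : P219.IsLeviCivita g Γ := by
  have hc : ∀ (u v x : Rn n), nabla Γ u (fun _ => v) x = Γ x u v := by
    intro u v x
    unfold nabla
    rw [fderiv_fun_const]
    simp
  refine ⟨fun x u v => ?_, fun x z v w => ?_⟩
  · have h1 := h.torsionFree (fun _ => u) (fun _ => v) contDiff_const contDiff_const x
    have h2 : VectorField.lieBracket ℝ (fun _ : Rn n => u) (fun _ => v) x = 0 := by
      simp [VectorField.lieBracket]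
    rw [h2, hc, hc] at h1
    exact sub_eq_zero.1 h1
  · have h1 := h.metric (fun _ => v) (fun _ => w) contDiff_const contDiff_const x z
    rw [hc, hc] at h1
    rw [← h1]
    have hd : HasFDerivAt g (fderiv ℝ g x) x := (hg.smooth.differentiable (by simp) x).hasFDerivAt
    have h2 := (hd.clm_apply (hasFDerivAt_const v x)).clm_apply (hasFDerivAt_const w x)
    rw [h2.fderiv]
    simp

theorem lc_unique {g : Rn n → Rn n →L[ℝ] Rn n →L[ℝ] ℝ} (hg : IsRiemannianMetric g)
    {Γ Γ' : Rn n → Rn n →L[ℝ] Rn n →L[ℝ] Rn n} (h : P219.IsLeviCivita g Γ)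
    (h' : P219.IsLeviCivita g Γ') : Γ = Γ' := by
  funext p
  have hT : ∀ u v w : Rn n, g p (Γ p u v) w - g p (Γ' p u v) w = 0 := by
    intro u v w
    have m1 := h.compat p u v w
    have m1' := h'.compat p u v w
    have m2 := h.compat p v w u
    have m2' := h'.compat p v w u
    have m3 := h.compat p w u v
    have m3' := h'.compat p w u v
    have s1 := h.symm p v u
    have s2 := h.symm p w u
    have s3 := h.symm p w v
    have s1' := h'.symm p v u
    have s2' := h'.symm p w u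
    have s3' := h'.symm p w v
    rw [s1] at m2
    rw [s1'] at m2'
    rw [s2, s3] at m3
    rw [s2', s3'] at m3'
    have g1 := hg.symm p v (Γ p u w)
    have g2 := hg.symm p w (Γ p u v)
    have g3 := hg.symm p u (Γ p v w)
    have g1' := hg.symm p v (Γ' p u w)
    have g2' := hg.symm p w (Γ' p u v)
    have g3' := hg.symm p u (Γ' p v w)
    rw [g1] at m1
    rw [g1'] at m1'
    rw [g2] at m2
    rw [g2'] at m2'
    rw [g3] at m3
    rw [g3'] at m3'
    linarith
  ext1 u
  ext1 v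
  by_contra hne
  have hne' : Γ p u v - Γ' p u v ≠ 0 := sub_ne_zero.mpr hne
  have hpos := hg.posDef p _ hne'
  have h0 := hT u v (Γ p u v - Γ' p u v)
  have e1 : g p (Γ p u v - Γ' p u v) = g p (Γ p u v) - g p (Γ' p u v) := map_sub _ _ _
  have e2 : g p (Γ p u v - Γ' p u v) (Γ p u v - Γ' p u v) =
      g p (Γ p u v) (Γ p u v - Γ' p u v) - g p (Γ' p u v) (Γ p u v - Γ' p u v) := by
    rw [e1]
    rfl
  linarith

theorem toΓ_mat {g : Rn n → Rn n →L[ℝ] Rn n →L[ℝ] ℝ} (hg : IsRiemannianMetric g)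
    {Γ : Rn n → Rn n →L[ℝ] Rn n →L[ℝ] Rn n} (h : IsLeviCivita g Γ) :
    P219.Co.toΓ (mat g) = Γ := by
  have h1 := P219.Co.isLeviCivita_toΓ (isMetric_mat hg)
  rw [toG_mat] at h1
  exact lc_unique hg h1 (lc_of hg h)

theorem curvature_eq {g : Rn n → Rn n →L[ℝ] Rn n →L[ℝ] ℝ} (hg : IsRiemannianMetric g)
    {Γ : Rn n → Rn n →L[ℝ] Rn n →L[ℝ] Rn n} (h : IsLeviCivita g Γ) (x u v w : Rn n) :
    curvature Γ x u v w = P219.curv Γ x u v w := by
  have hm : P219.IsMetric g := ⟨hg.smooth, hg.symm, hg.posDef⟩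
  obtain ⟨-, hΓ⟩ := P219G.isLeviCivita_of_lc g hm Γ (lc_of hg h)
  have hd : ∀ x, HasFDerivAt Γ (fderiv ℝ Γ x) x := fun x =>
    (hΓ.smooth.differentiable (by simp) x).hasFDerivAt
  have hc : ∀ v : Rn n, nabla Γ v (fun _ => w) = fun y => Γ y v w := by
    intro v
    funext y
    unfold nabla
    rw [fderiv_fun_const]
    simp
  have hf : ∀ u v : Rn n, fderiv ℝ (fun y => Γ y v w) x u = fderiv ℝ Γ x u v w := by
    intro u v
    have h2 := ((hd x).clm_apply (hasFDerivAt_const v x)).clm_apply (hasFDerivAt_const w x)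
    rw [h2.fderiv]
    simp
  unfold curvature P219.curv
  rw [hc, hc]
  unfold nabla
  rw [hf, hf]
  abel

theorem isCompleteSecLe_mat {κ : ℝ} {g : Rn n → Rn n →L[ℝ] Rn n →L[ℝ] ℝ}
    (hg : IsCompleteSecLE κ g) : P219.Co.IsCompleteSecLe κ (mat g) := by
  obtain ⟨hm, Γ, hlc, hcomp, hsec⟩ := hg
  have hM := isMetric_mat hm
  have hΓ := toΓ_mat hm hlc
  have hcoord : ∀ (x a b : Rn n) (k : Fin n), Γ x a b k
      = ∑ i, ∑ j, P219.Co.christoffel (mat g) k i j x * a i * b j := by
    intro x a b k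
    rw [← hΓ]
    exact P219.Co.bilv_apply _ a b k
  refine ⟨hM, ?_, ?_⟩
  · intro p w
    obtain ⟨γ, hs, h0, h1, hgeo⟩ := hcomp p w
    have hd1 : Differentiable ℝ γ := hs.differentiable (by simp)
    have hs2 : ContDiff ℝ ∞ (deriv γ) := by
      exact (contDiff_infty_iff_deriv.1 hs).2
    have hd2 : Differentiable ℝ (deriv γ) := hs2.differentiable (by simp)
    have hco : ∀ (f : ℝ → Rn n) (f' : Rn n) (t : ℝ) (k : Fin n), HasDerivAt f f' t →
        HasDerivAt (fun s => f s k) (f' k) t := by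
      intro f f' t k hf
      exact ((EuclideanSpace.proj (𝕜 := ℝ) k : Rn n →L[ℝ] ℝ).hasFDerivAt).comp_hasDerivAt t hf
    refine ⟨γ, deriv γ, ⟨fun t k => ?_, fun t k => ?_⟩, h0, h1⟩
    · exact hco _ _ _ _ (hd1 t).hasDerivAt
    · have h2 := hco _ _ _ k (hd2 t).hasDerivAt
      have h3 : deriv (deriv γ) t = -(Γ (γ t) (deriv γ t) (deriv γ t)) :=
        eq_neg_of_add_eq_zero_left (hgeo t)
      rw [h3] at h2
      have h4 : (-(Γ (γ t) (deriv γ t) (deriv γ t))) k
          = -∑ i, ∑ j, P219.Co.christoffel (mat g) k i j (γ t) * deriv γ t i * deriv γ t j := by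
        rw [← hcoord]
        rfl
      rw [h4] at h2
      exact h2
  · intro x u v huv
    obtain ⟨U, hU⟩ : ∃ U : Rn n, U = WithLp.toLp 2 u := ⟨_, rfl⟩
    obtain ⟨V, hV⟩ : ∃ V : Rn n, V = WithLp.toLp 2 v := ⟨_, rfl⟩
    have hu : u = U.ofLp := by rw [hU]
    have hv : v = V.ofLp := by rw [hV]
    rw [hu, hv] at huv ⊢
    have hli : LinearIndependent ℝ ![U, V] := by
      rw [LinearIndependent.pair_iff] at huv ⊢
      intro s t hst
      apply huv s t
      have := congrArg WithLp.ofLp hst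
      simpa using this
    have hP : P219.IsMetric g := ⟨hm.smooth, hm.symm, hm.posDef⟩
    have hD := P219.gram2_pos hP x U V hli
    have hc : (P219.curv Γ x U V V).ofLp
        = P219.Co.curvature (mat g) x U.ofLp V.ofLp V.ofLp := by
      funext l
      rw [← hΓ]
      exact P219.Co.curv_toΓ hM x U V V l
    have hip : ∀ a b : Rn n, g x a b = P219.Co.ip (mat g) x a.ofLp b.ofLp := by
      intro a b
      have := P219.Co.bil_apply (mat g x) a b
      rw [← congrFun (toG_mat g) x]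
      exact this
    unfold P219.Co.sectional
    rw [← hc, ← hip, ← hip, ← hip, ← hip, div_le_iff₀ hD, ← curvature_eq hm hlc]
    exact hsec x U V

theorem vol_eq (g : Rn n → Rn n →L[ℝ] Rn n →L[ℝ] ℝ) : vol g = P219.Co.vol (mat g) := by
  unfold vol P219.Co.vol P219.Co.density
  congr 1
  funext x
  rw [gramDet_top]

theorem divergence_eq (g : Rn n → Rn n →L[ℝ] Rn n →L[ℝ] ℝ) {X : Rn n → Rn n}
    (hg : IsRiemannianMetric g) (hX : ContDiff ℝ 1 X) (x : Rn n) :
    divergence g X x = P219.Co.divergence (mat g) X x := by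
  have hM := isMetric_mat hg
  unfold divergence P219.Co.divergence P219.Co.density
  rw [gramDet_top]
  congr 1
  have h1 : (fun y => √(gramDet g y ⊤) • X y) = fun y => √(mat g y).det • X y := by
    funext y
    rw [gramDet_top]
  rw [h1]
  have hdet : ContDiff ℝ ∞ (fun y => (mat g y).det) := P219.Co.conv_det_smooth hM.smooth
  have hd : DifferentiableAt ℝ (fun y => √(mat g y).det • X y) x := by
    have h0 : DifferentiableAt ℝ (fun y => √(mat g y).det) x :=
      ((hdet.differentiable (by simp)) x).sqrt (P219.Co.det_pos hM x).ne'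
    exact h0.smul (hX.differentiable (by simp) x)
  rw [LinearMap.trace_eq_matrix_trace ℝ (EuclideanSpace.basisFun (Fin n) ℝ).toBasis]
  unfold Matrix.trace
  refine Finset.sum_congr rfl fun i _ => ?_
  have h2 : fderiv ℝ (fun y => (√(mat g y).det • X y) i) x
      = (EuclideanSpace.proj (𝕜 := ℝ) i : Rn n →L[ℝ] ℝ).comp
        (fderiv ℝ (fun y => √(mat g y).det • X y) x) :=
    ((EuclideanSpace.proj (𝕜 := ℝ) i : Rn n →L[ℝ] ℝ).hasFDerivAt.comp x hd.hasFDerivAt).fderiv
  have h3 : (fun y => √(mat g y).det * X y i) = fun y => (√(mat g y).det • X y) i := rfl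
  unfold P219.Co.pd
  rw [h3, h2]
  simp [Matrix.diag, LinearMap.toMatrix_apply]

theorem perimeter_eq {g : Rn n → Rn n →L[ℝ] Rn n →L[ℝ] ℝ} (hg : IsRiemannianMetric g)
    (Ω : Set (Rn n)) : perimeter g Ω = P219.Co.perimeter (mat g) Ω := by
  unfold perimeter P219.Co.perimeter
  refine iSup_congr (fun X => ?_)
  have hiff : (ContDiff ℝ 1 X ∧ HasCompactSupport X ∧ ∀ x, g x (X x) (X x) ≤ 1) ↔
      P219.Co.IsTestField (mat g) X := by
    have h : ∀ x, g x (X x) (X x) = ∑ i, ∑ j, mat g x i j * X x i * X x j := by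
      intro x
      have := P219.Co.bil_apply (mat g x) (X x) (X x)
      rw [← this]
      conv_lhs => rw [← congrFun (toG_mat g) x]
      rfl
    constructor
    · rintro ⟨h1, h2, h3⟩
      refine ⟨h1, h2, fun x => ?_⟩
      rw [← h]
      exact h3 x
    · rintro ⟨h1, h2, h3⟩
      refine ⟨h1, h2, fun x => ?_⟩
      rw [h]
      exact h3 x
  refine iSup_congr_Prop hiff (fun hX => ?_)
  rw [vol_eq]
  congr 1
  apply integral_congr_ae
  exact Filter.Eventually.of_forall (fun x => divergence_eq g hg hX.smooth x)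

end Vale.Agent.Lib.P219D
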